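import Vale.Agent.P027.H847.Base

/-! Base level: cells of exact order `3 ^ l * 5`. -/

set_option linter.all false

namespace Vale.Agent.P027.N.B7

open Vale.Agent.P027 Vale.Agent.P027.Q

lemma ord_5 : Ord 5 5 := by
  have hp5 : Nat.Prime 5 := by norm_num
  have h5 : Dv 5 5 := by
    right
    rw [xc_of_hasX hasX_5]
    have : Fact (Nat.Prime 5) := ⟨hp5⟩
    have e : (-1 / 25 : ℚ) = -(1 / (((5 : ℕ) : ℚ) ^ 2)) := by norm_num
    rw [e, padicValRat.neg, padicValRat.div (by norm_num) (by norm_num), padicValRat.pow,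
      vself hp5]
    norm_num
  obtain ⟨m, hm⟩ := exists_Ord hp5 (by norm_num : (5 : ℤ) ≠ 0) h5
  have h1 : m ∣ 5 := by exact_mod_cast (hm.2 5).1 h5
  rcases (Nat.dvd_prime hp5).1 h1 with h2 | h2
  · exfalso
    subst h2
    have h3 : Dv 5 1 := (hm.2 1).2 (by norm_num)
    rcases h3 with h3 | h3
    · norm_num at h3
    · rw [xc_of_hasX hasX_1] at h3
      simp at h3
  · subst h2; exact hm

/-- the inert primes in the denominator -/
lemma exists_F (n : ℤ) (hn : n ≠ 0) : ∃ F : Finset ℕ, ∀ q, q ∈ F ↔ Inert q ∧ Dv q n := by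
  classical
  refine ⟨(xc (n • P0)).den.primeFactors.filter (fun q => Inert q ∧ Dv q n), fun q => ?_⟩
  rw [Finset.mem_filter]
  refine ⟨fun h => h.2, fun h => ⟨?_, h⟩⟩
  rw [Nat.mem_primeFactors]
  refine ⟨h.1.1, ?_, (xc (n • P0)).den_ne_zero⟩
  by_contra hcon
  have h1 : padicValRat q (xc (n • P0)) < 0 := h.2.resolve_left hn
  have h2 : padicValRat q (xc (n • P0)) =
      (padicValInt q (xc (n • P0)).num : ℤ) - padicValNat q (xc (n • P0)).den := rfl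
  rw [h2, padicValNat.eq_zero_of_not_dvd hcon] at h1
  push_cast at h1
  omega

open Classical in
lemma dvd_count {o l : ℕ} (h : o ∣ 3 ^ (l + 1) * 5) :
    ((if o ∣ 3 ^ (l + 1) * 5 then 1 else 0 : ℤ) + (if o ∣ 3 ^ l then 1 else 0)) -
      ((if o ∣ 3 ^ l * 5 then 1 else 0) + (if o ∣ 3 ^ (l + 1) then 1 else 0)) =
      if o = 3 ^ (l + 1) * 5 then 1 else 0 := by
  obtain ⟨a, b, ha, hb, rfl⟩ := (Nat.dvd_mul).1 h
  have hp5 : Nat.Prime 5 := by norm_num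
  obtain ⟨t, ht, rfl⟩ := (Nat.dvd_prime_pow Nat.prime_three).1 ha
  have c35 : ∀ u : ℕ, Nat.Coprime (3 ^ u) 5 := fun u => Nat.Coprime.pow_left u (by decide)
  have e3 : ∀ u v : ℕ, 3 ^ u ∣ 3 ^ v ↔ u ≤ v := fun u v =>
    Nat.pow_dvd_pow_iff_le_right (by norm_num)
  have e4 : ∀ u v : ℕ, 3 ^ u * 5 ∣ 3 ^ v * 5 ↔ u ≤ v := fun u v => by
    rw [Nat.mul_dvd_mul_iff_right (by norm_num), e3]
  have e5 : ∀ u v : ℕ, ¬ 3 ^ u * 5 ∣ 3 ^ v := fun u v h => by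
    have h1 : 5 ∣ 3 ^ v := (Nat.dvd_mul_left 5 _).trans h
    exact absurd (hp5.dvd_of_dvd_pow h1) (by norm_num)
  have e6 : ∀ u v : ℕ, 3 ^ u ∣ 3 ^ v * 5 ↔ u ≤ v := fun u v => by
    rw [← e3]
    exact ⟨fun h => (c35 u).dvd_of_dvd_mul_right h, fun h => h.mul_right 5⟩
  rcases (Nat.dvd_prime hp5).1 hb with rfl | rfl
  · rw [mul_one]
    have e7 : ¬ 3 ^ t = 3 ^ (l + 1) * 5 := fun h => by
      have h1 : 5 ∣ 3 ^ t := ⟨3 ^ (l + 1), by rw [h]; ring⟩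
      exact absurd (hp5.dvd_of_dvd_pow h1) (by norm_num)
    simp only [e3, e6, if_neg e7]
    ring
  · have e7 : 3 ^ t * 5 = 3 ^ (l + 1) * 5 ↔ t = l + 1 := by
      constructor
      · intro h
        exact Nat.pow_right_injective (le_refl 3 |> fun _ => by norm_num) (Nat.eq_of_mul_eq_mul_right (by norm_num) h)
      · rintro rfl; rfl
    simp only [e4, e5, e7, if_false]
    by_cases h1 : t = l + 1
    · subst h1
      simp
    · have h2 : t ≤ l := by omega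
      simp [h1, h2, ht]

theorem stBasCell (hP : StParity) : StBasCell := by
  classical
  intro K l hl hlK
  obtain ⟨l, rfl⟩ : ∃ l', l = l' + 1 := ⟨l - 1, by omega⟩
  set n : ℤ := 3 ^ (l + 1) * 5 with hn
  have hn0 : n ≠ 0 := by positivity
  obtain ⟨F, hF⟩ := exists_F n hn0
  have hoddp : ∀ i : ℕ, Odd (3 ^ i : ℤ) := fun i => Odd.pow (by decide)
  have hodd5 : ∀ i : ℕ, Odd (3 ^ i * 5 : ℤ) := fun i => (hoddp i).mul (by decide)
  -- orders
  have hord : ∀ q ∈ F, ∃ o, Ord q o ∧ o ∣ 3 ^ (l + 1) * 5 := by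
    intro q hq
    obtain ⟨h1, h2⟩ := (hF q).1 hq
    obtain ⟨o, ho⟩ := exists_Ord h1.1 hn0 h2
    have h3 := (ho.2 _).1 h2
    rw [hn] at h3
    exact ⟨o, ho, by exact_mod_cast h3⟩
  choose! o ho hod using hord
  have hq3 : ∀ q ∈ F, q ≠ 3 := by
    rintro q hq rfl
    exact not_dv_three (hodd5 (l + 1)) ((hF 3).1 hq).2
  -- the same valuations
  have hsame : ∀ q ∈ F, ∀ m k : ℤ, m ≠ 0 → n = m * k → Dv q m →
      (k = 1 ∨ k = 3 ∨ (k = 5 ∧ ¬ (5 : ℤ) ∣ m) ∨ (k = 15 ∧ ¬ (5 : ℤ) ∣ m)) → hv q m = hv q n := by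
    intro q hq m k hm hk hD hc
    have hqp := ((hF q).1 hq).1.1
    have hk0 : k ≠ 0 := by rintro rfl; rw [mul_zero] at hk; exact hn0 hk
    have key : ¬ (q : ℤ) ∣ k := by
      intro hqk
      have h3 := hq3 q hq
      have h5 : (¬ (5 : ℤ) ∣ m) → q ≠ 5 := by
        rintro h5 rfl
        exact h5 ((ord_5.2 _).1 hD)
      have hp5 : Nat.Prime 5 := by norm_num
      rcases hc with rfl | rfl | ⟨rfl, h4⟩ | ⟨rfl, h4⟩
      · have h6 : q ∣ 1 := by exact_mod_cast hqk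
        exact hqp.one_lt.ne' (Nat.dvd_one.1 h6)
      · have h6 : q ∣ 3 := by exact_mod_cast hqk
        exact h3 ((Nat.prime_dvd_prime_iff_eq hqp Nat.prime_three).1 h6)
      · have h6 : q ∣ 5 := by exact_mod_cast hqk
        exact h5 h4 ((Nat.prime_dvd_prime_iff_eq hqp hp5).1 h6)
      · have h6 : q ∣ 3 * 5 := by exact_mod_cast hqk
        rcases hqp.dvd_mul.1 h6 with h7 | h7
        · exact h3 ((Nat.prime_dvd_prime_iff_eq hqp Nat.prime_three).1 h7)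
        · exact h5 h4 ((Nat.prime_dvd_prime_iff_eq hqp hp5).1 h7)
    rw [hk, hv_same hqp hm hD hk0 key]
  -- the sums
  have hsum : ∀ (m : ℕ) (k : ℤ), Odd (m : ℤ) → n = (m : ℤ) * k →
      (k = 1 ∨ k = 3 ∨ (k = 5 ∧ ¬ (5 : ℤ) ∣ m) ∨ (k = 15 ∧ ¬ (5 : ℤ) ∣ m)) →
      (Odd (∑ q ∈ F, (if o q ∣ m then 1 else 0 : ℤ) * hv q n) ↔
        ((m : ℤ) % 16 = 5 ∨ (m : ℤ) % 16 = 7 ∨ (m : ℤ) % 16 = 9 ∨ (m : ℤ) % 16 = 11)) := by
    intro m k hodd hk hc
    have hm0 : (m : ℤ) ≠ 0 := by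
      intro h; rw [h, zero_mul] at hk; exact hn0 hk
    rw [← hP (m : ℤ) F hodd (fun q hq => ((hF q).1 hq).1) (fun q hq hD => (hF q).2 ⟨hq, by
      rw [hk]; exact dv_mul hq.1 hD k⟩)]
    have e : ∑ q ∈ F, (if o q ∣ m then 1 else 0 : ℤ) * hv q n =
        ∑ q ∈ F.filter (fun q => padicValRat q (xc ((m : ℤ) • P0)) < 0), hv q (m : ℤ) := by
      rw [Finset.sum_filter]
      apply Finset.sum_congr rfl
      intro q hq
      have h1 : padicValRat q (xc ((m : ℤ) • P0)) < 0 ↔ o q ∣ m := by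
        have h2 : Dv q (m : ℤ) ↔ padicValRat q (xc ((m : ℤ) • P0)) < 0 := by
          unfold Dv
          exact or_iff_right hm0
        rw [← h2, (ho q hq).2]
        exact Int.natCast_dvd_natCast
      by_cases h3 : o q ∣ m
      · rw [if_pos h3, if_pos (h1.2 h3), one_mul]
        exact (hsame q hq m k hm0 hk (Or.inr (h1.2 h3)) hc).symm
      · rw [if_neg h3, if_neg (fun h => h3 (h1.1 h)), zero_mul]
    rw [e]
  have h5nd : ∀ i : ℕ, ¬ (5 : ℤ) ∣ ((3 ^ i : ℕ) : ℤ) := by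
    intro i h
    have h1 : 5 ∣ 3 ^ i := by exact_mod_cast h
    exact absurd ((by norm_num : Nat.Prime 5).dvd_of_dvd_pow h1) (by norm_num)
  have s1 := hsum (3 ^ (l + 1) * 5) 1 (by exact_mod_cast hodd5 (l + 1)) (by rw [hn]; push_cast; ring)
    (Or.inl rfl)
  have s2 := hsum (3 ^ l * 5) 3 (by exact_mod_cast hodd5 l) (by rw [hn]; push_cast; ring)
    (Or.inr (Or.inl rfl))
  have s3 := hsum (3 ^ (l + 1)) 5 (by exact_mod_cast hoddp (l + 1)) (by rw [hn]; push_cast; ring)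
    (Or.inr (Or.inr (Or.inl ⟨rfl, h5nd _⟩)))
  have s4 := hsum (3 ^ l) 15 (by exact_mod_cast hoddp l) (by rw [hn]; push_cast; ring)
    (Or.inr (Or.inr (Or.inr ⟨rfl, h5nd _⟩)))
  have htot : Odd (∑ q ∈ F, (if o q = 3 ^ (l + 1) * 5 then 1 else 0 : ℤ) * hv q n) := by
    have e : ∑ q ∈ F, (if o q = 3 ^ (l + 1) * 5 then 1 else 0 : ℤ) * hv q n =
        (∑ q ∈ F, (if o q ∣ 3 ^ (l + 1) * 5 then 1 else 0 : ℤ) * hv q n +
          ∑ q ∈ F, (if o q ∣ 3 ^ l then 1 else 0 : ℤ) * hv q n) -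
        (∑ q ∈ F, (if o q ∣ 3 ^ l * 5 then 1 else 0 : ℤ) * hv q n +
          ∑ q ∈ F, (if o q ∣ 3 ^ (l + 1) then 1 else 0 : ℤ) * hv q n) := by
      rw [← Finset.sum_add_distrib, ← Finset.sum_add_distrib, ← Finset.sum_sub_distrib]
      apply Finset.sum_congr rfl
      intro q hq
      rw [← dvd_count (hod q hq)]
      ring
    rw [e]
    have hmod : ∀ i : ℕ, ((3 ^ i : ℕ) : ℤ) % 16 = 1 ∨ ((3 ^ i : ℕ) : ℤ) % 16 = 3 ∨
        ((3 ^ i : ℕ) : ℤ) % 16 = 9 ∨ ((3 ^ i : ℕ) : ℤ) % 16 = 11 := by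
      intro i
      induction i with
      | zero => left; norm_num
      | succ i ih =>
        push_cast at ih ⊢
        rw [pow_succ]
        omega
    rw [Int.odd_sub, Int.odd_add, Int.even_add]
    have n1 : Even (∑ q ∈ F, (if o q ∣ 3 ^ l then 1 else 0 : ℤ) * hv q n) ↔ ¬ Odd (∑ q ∈ F, (if o q ∣ 3 ^ l then 1 else 0 : ℤ) * hv q n) := Int.not_odd_iff_even.symm
    have n2 : Even (∑ q ∈ F, (if o q ∣ 3 ^ l * 5 then 1 else 0 : ℤ) * hv q n) ↔ ¬ Odd (∑ q ∈ F, (if o q ∣ 3 ^ l * 5 then 1 else 0 : ℤ) * hv q n) := Int.not_odd_iff_even.symm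
    have n3 : Even (∑ q ∈ F, (if o q ∣ 3 ^ (l + 1) then 1 else 0 : ℤ) * hv q n) ↔ ¬ Odd (∑ q ∈ F, (if o q ∣ 3 ^ (l + 1) then 1 else 0 : ℤ) * hv q n) := Int.not_odd_iff_even.symm
    rw [n1, n2, n3, s1, s2, s3, s4]
    have hm := hmod l
    push_cast at hm ⊢
    rw [pow_succ]
    omega
  -- the prime
  obtain ⟨q, hq, hqo⟩ : ∃ q ∈ F, Odd ((if o q = 3 ^ (l + 1) * 5 then 1 else 0 : ℤ) * hv q n) := by
    by_contra hcon
    push Not at hcon
    have : Even (∑ q ∈ F, (if o q = 3 ^ (l + 1) * 5 then 1 else 0 : ℤ) * hv q n) := by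
      apply Finset.even_sum
      intro q hq
      exact Int.not_odd_iff_even.1 (hcon q hq)
    exact (Int.not_even_iff_odd.2 htot) this
  have hoq : o q = 3 ^ (l + 1) * 5 := by
    by_contra h
    rw [if_neg h, zero_mul] at hqo
    exact absurd hqo (by decide)
  rw [if_pos hoq, one_mul] at hqo
  have hqi := ((hF q).1 hq).1
  have hqD := ((hF q).1 hq).2
  have hoq' := ho q hq
  rw [hoq] at hoq'
  have hq5 : q ≠ 5 := by
    rintro rfl
    have h1 := ord_5.unique hoq'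
    have h2 : 3 ^ (l + 1) = 1 := by omega
    have h3 : 3 ∣ 1 := by rw [← h2]; exact dvd_pow_self 3 (by omega)
    norm_num at h3
  have hqn : ¬ q ∣ 3 ^ (l + 1) * 5 := by
    intro h
    rcases hqi.1.dvd_mul.1 h with h1 | h1
    · exact hq3 q hq ((Nat.prime_dvd_prime_iff_eq hqi.1 Nat.prime_three).1
        (hqi.1.dvd_of_dvd_pow h1))
    · exact hq5 ((Nat.prime_dvd_prime_iff_eq hqi.1 (by norm_num)).1 h1)
  refine ⟨q, ⟨hqi, hq3 q hq, 3 ^ (l + 1) * 5, hoq', hqn, 3, 5, Nat.prime_three, by norm_num,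
    by norm_num, Dvd.dvd.mul_right (dvd_pow_self 3 (by omega)) 5, Nat.dvd_mul_left 5 _⟩, ?_, ?_⟩
  · refine ⟨⟨l + 1, by omega⟩, ?_, ?_, ?_⟩
    · intro h
      exact hqn (by exact_mod_cast h)
    · exact hqD
    · exact hqo
  · intro k
    rw [hoq'.2]
    have e : (((3 ^ (l + 1) * 5 : ℕ) : ℤ) ∣ 3 ^ (k : ℕ) * 5) ↔ 3 ^ (l + 1) * 5 ∣ 3 ^ (k : ℕ) * 5 := by
      exact_mod_cast Iff.rfl
    rw [e, Nat.mul_dvd_mul_iff_right (by norm_num), Nat.pow_dvd_pow_iff_le_right (by norm_num)]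

end Vale.Agent.P027.N.B7
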