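import Vale.Agent.P027.N.Val

/-! Base level: the values for the indices `3 ^ i * 5`. -/

set_option linter.all false

namespace Vale.Agent.P027.N.B7

open Vale.Agent.P027 Vale.Agent.P027.Q

lemma hasX_5 : HasX ((5 : ℤ) • P0) (-1 / 25) := by
  obtain ⟨s, d, hs, hd, -, hprod⟩ := Q.hasX_add_sub hasX_4 hasX_1 (by norm_num)
  have e1 : (4 : ℤ) • P0 - (1 : ℤ) • P0 = (3 : ℤ) • P0 := by
    rw [sub_eq_add_neg, ← sub_zsmul]; norm_num
  have e2 : (4 : ℤ) • P0 + (1 : ℤ) • P0 = (5 : ℤ) • P0 := by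
    rw [← add_zsmul]; norm_num
  rw [e1] at hd
  rw [e2] at hs
  have hd1 : d = -9 := hd.unique hasX_3
  rw [hd1] at hprod
  have : s = -1 / 25 := by linarith
  rw [← this]
  exact hs

/-- the first coordinate of the triple -/
lemma trip {m : ℤ} {s X : ℚ} (hm : m ≠ 0) (hs : s ≠ 0) (h : HasX (m • P0) (-s ^ 2))
    (hX : 4 * (-s ^ 6 + 10 * s ^ 4 + 7 * s ^ 2) * X = (s ^ 4 + 7) ^ 2) :
    X + s ^ 2 ≠ 0 ∧ ∃ x', HasX ((3 * m) • P0) x' ∧
      x' * (s * (X + s ^ 2)) ^ 2 = -(7 - X * s ^ 2) ^ 2 := by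
  have hs2 : -s ^ 2 ≠ 0 := by
    rw [neg_ne_zero]; exact pow_ne_zero 2 hs
  have h2 := hasX_dbl h hs2
  have hc := cubic_ne hs2
  have eX : ((-s ^ 2) ^ 2 + 7) ^ 2 / (4 * ((-s ^ 2) ^ 3 + 10 * (-s ^ 2) ^ 2 - 7 * (-s ^ 2))) = X := by
    rw [div_eq_iff (mul_ne_zero (by norm_num) hc)]
    linear_combination -hX
  rw [eX] at h2
  have hne : X ≠ -s ^ 2 := by
    intro he
    rw [he] at h2
    rcases h2.eq_or_neg h with h3 | h3
    · have := zsmul_inj h3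
      omega
    · rw [← neg_zsmul] at h3
      have := zsmul_inj h3
      omega
  have hne2 : X + s ^ 2 ≠ 0 := by
    intro he
    apply hne
    linarith
  refine ⟨hne2, ?_⟩
  obtain ⟨t, d, ht, hd, -, hprod⟩ := Q.hasX_add_sub h2 h hne
  have e1 : (2 * m) • P0 + m • P0 = (3 * m) • P0 := by
    rw [← add_zsmul]; congr 1; ring
  have e2 : (2 * m) • P0 - m • P0 = m • P0 := by
    rw [sub_eq_add_neg, ← sub_zsmul]; congr 1; ring
  rw [e1] at ht
  rw [e2] at hd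
  have hd1 : d = -s ^ 2 := hd.unique h
  rw [hd1] at hprod
  refine ⟨t, ht, ?_⟩
  linear_combination -hprod

lemma tri_sound {m : ℤ} {s s' : ℚ} (h : Ix m s) (ht : Tri s s') : Ix (3 * m) s' := by
  obtain ⟨ho, hs, hx⟩ := h
  obtain ⟨X, hX, h2⟩ := ht
  have hm : m ≠ 0 := by
    rintro rfl
    exact absurd ho (by decide)
  obtain ⟨hne, x', hx', hprod⟩ := trip hm hs hx hX
  have hne3 : s * (X + s ^ 2) ≠ 0 := mul_ne_zero hs hne
  have e : x' = -s' ^ 2 := by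
    have h3 : (x' - -s' ^ 2) * (s * (X + s ^ 2)) ^ 2 = 0 := by
      linear_combination hprod + h2
    rcases mul_eq_zero.1 h3 with h4 | h4
    · linarith
    · exact absurd h4 (pow_ne_zero 2 hne3)
  have h3m : 3 * m ≠ 0 := mul_ne_zero (by norm_num) hm
  refine ⟨Odd.mul (by decide) ho, ?_, ?_⟩
  · rintro rfl
    apply xc_ne_zero h3m
    rw [xc_of_hasX hx', e]
    norm_num
  · rw [← e]; exact hx'

lemma tri_exists {m : ℤ} {s : ℚ} (h : Ix m s) : ∃ s', Tri s s' := by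
  obtain ⟨ho, hs, hx⟩ := h
  have hm : m ≠ 0 := by
    rintro rfl
    exact absurd ho (by decide)
  have hs2 : -s ^ 2 ≠ 0 := by
    rw [neg_ne_zero]; exact pow_ne_zero 2 hs
  have hc := cubic_ne hs2
  have hc' : 4 * (-s ^ 6 + 10 * s ^ 4 + 7 * s ^ 2) ≠ 0 := by
    intro h0
    apply hc
    linear_combination h0 / 4
  obtain ⟨X, hX⟩ : ∃ X, 4 * (-s ^ 6 + 10 * s ^ 4 + 7 * s ^ 2) * X = (s ^ 4 + 7) ^ 2 :=
    ⟨(s ^ 4 + 7) ^ 2 / (4 * (-s ^ 6 + 10 * s ^ 4 + 7 * s ^ 2)), mul_div_cancel₀ _ hc'⟩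
  obtain ⟨hne, -⟩ := trip hm hs hx hX
  have hne3 : s * (X + s ^ 2) ≠ 0 := mul_ne_zero hs hne
  refine ⟨(7 - X * s ^ 2) / (s * (X + s ^ 2)), X, hX, ?_⟩
  rw [mul_assoc ((7 - X * s ^ 2) / (s * (X + s ^ 2))), div_mul_cancel₀ _ hne3]

theorem stBasSound : StBasSound := by
  intro K s hB i
  obtain ⟨h0, hT⟩ := hB
  have key : ∀ n : ℕ, ∀ hn : n < K + 1, Ix (3 ^ n * 5) (s ⟨n, hn⟩) := by
    intro n
    induction n with
    | zero =>
      intro hn
      have e : (⟨0, hn⟩ : Fin (K + 1)) = 0 := rfl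
      rw [e]
      refine ⟨by decide, ?_, ?_⟩
      · intro h1
        rw [h1] at h0
        norm_num at h0
      · have e2 : -s 0 ^ 2 = -1 / 25 := by linarith
        rw [e2]
        simpa using hasX_5
    | succ n ih =>
      intro hn
      have hn' : n < K := by omega
      have h1 := ih (by omega)
      have h2 := hT ⟨n, hn'⟩
      have h3 := tri_sound h1 h2
      have e : (3 : ℤ) * (3 ^ n * 5) = 3 ^ (n + 1) * 5 := by ring
      rw [e] at h3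
      exact h3
  exact key i i.2

theorem stBasExists : StBasExists := by
  intro K
  have hstep : ∀ (p : {s : ℚ // ∃ m, Ix m s}), ∃ p' : {s : ℚ // ∃ m, Ix m s}, Tri p.1 p'.1 := by
    rintro ⟨s, m, hm⟩
    obtain ⟨s', hs'⟩ := tri_exists hm
    exact ⟨⟨s', 3 * m, tri_sound hm hs'⟩, hs'⟩
  choose f hf using hstep
  have h0 : Ix 5 (1 / 5) := by
    refine ⟨by decide, by norm_num, ?_⟩
    have e2 : -(1 / 5 : ℚ) ^ 2 = -1 / 25 := by norm_num
    rw [e2]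
    exact hasX_5
  let g : ℕ → {s : ℚ // ∃ m, Ix m s} := fun n => Nat.rec ⟨1 / 5, 5, h0⟩ (fun _ p => f p) n
  refine ⟨fun i => (g i).1, ?_, ?_⟩
  · show 25 * (1 / 5 : ℚ) ^ 2 = 1
    norm_num
  · intro i
    exact hf (g i)

/-! ### orders of three and five, the honest base -/

lemma hv_same {q : ℕ} (hq : q.Prime) {n k : ℤ} (hn0 : n ≠ 0) (hn : Dv q n) (hk : k ≠ 0)
    (hqk : ¬ (q : ℤ) ∣ k) : hv q (n * k) = hv q n := by
  rw [hv_mul hq hn0 hn hk, padicValInt.eq_zero_of_not_dvd hqk]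
  simp

lemma dv_mul {q : ℕ} (hq : q.Prime) {n : ℤ} (hn : Dv q n) (k : ℤ) : Dv q (n * k) := by
  by_cases h0 : n = 0
  · left; rw [h0, zero_mul]
  · obtain ⟨m, hm⟩ := exists_Ord hq h0 hn
    rw [hm.2] at hn ⊢
    exact hn.mul_right k

theorem stBasHon : StBasHon := by
  intro K
  have hodd : ∀ i : ℕ, Odd (3 ^ i * 5 : ℤ) := fun i => (Odd.pow (by decide)).mul (by decide)
  refine ⟨fun k => hodd k, ?_⟩
  intro U q hq hD _
  have hq3 : q ≠ 3 := by
    rintro rfl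
    exact not_dv_three (hodd U) hD
  have hmul : ∀ i j : ℕ, i ≤ j → (3 ^ j * 5 : ℤ) = (3 ^ i * 5) * 3 ^ (j - i) := by
    intro i j hij
    obtain ⟨t, rfl⟩ := Nat.exists_eq_add_of_le hij
    rw [Nat.add_sub_cancel_left, pow_add]
    ring
  have hne : ∀ i : ℕ, (3 ^ i * 5 : ℤ) ≠ 0 := fun i => by positivity
  have hnd : ∀ t : ℕ, ¬ (q : ℤ) ∣ 3 ^ t := by
    intro t h
    have h1 : q ∣ 3 ^ t := by exact_mod_cast h
    exact hq3 ((Nat.prime_dvd_prime_iff_eq hq.1 Nat.prime_three).1 (hq.1.dvd_of_dvd_pow h1))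
  have hup : ∀ i j : ℕ, i ≤ j → Dv q (3 ^ i * 5) → Dv q (3 ^ j * 5) := by
    intro i j hij h
    rw [hmul i j hij]
    exact dv_mul hq.1 h _
  have hval : ∀ i j : ℕ, i ≤ j → Dv q (3 ^ i * 5) → hv q (3 ^ j * 5) = hv q (3 ^ i * 5) := by
    intro i j hij h
    rw [hmul i j hij]
    exact hv_same hq.1 (hne i) h (by positivity) (hnd _)
  refine ⟨fun k hk => ?_, ?_⟩
  · rcases le_total (k : ℕ) U with h | h
    · exact (hval k U h hk).symm
    · exact hval U k h hD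
  · classical
    have hex : ∃ l : ℕ, Dv q (3 ^ l * 5) := ⟨U, hD⟩
    refine ⟨Nat.find hex, fun i => ⟨fun h => Nat.find_min' hex h, fun h => ?_⟩⟩
    exact hup _ _ h (Nat.find_spec hex)

end Vale.Agent.P027.N.B7
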