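import Vale.Agent.P027.N.Val
import Vale.Agent.P027.Q.Vis2

/-! The parity law from the sign law. -/

set_option linter.all false

namespace Vale.Agent.P027.N.B7

open Vale.Agent.P027 Vale.Agent.P027.Q

/-- quadratic character modulo eight -/
lemma chi8_eq (n : ℕ) (hn : n % 2 = 1) :
    ZMod.χ₈ (n : ZMod 8) = if (n % 8 = 3 ∨ n % 8 = 5) then -1 else 1 := by
  have h1 : (n : ZMod 8) = ((n % 8 : ℕ) : ZMod 8) := by
    rw [ZMod.natCast_mod]
  have h2 : n % 8 = 1 ∨ n % 8 = 3 ∨ n % 8 = 5 ∨ n % 8 = 7 := by omega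
  rw [h1]
  rcases h2 with h | h | h | h <;> rw [h] <;> decide

open Classical in
/-- the number of inert prime factors -/
lemma chi8_prod {d : ℕ} (hd : d % 2 = 1) :
    ZMod.χ₈ (d : ZMod 8) = (-1) ^ (∑ q ∈ d.primeFactors.filter Inert, d.factorization q) := by
  have hd0 : d ≠ 0 := by omega
  have h1 : (d : ZMod 8) = ∏ q ∈ d.primeFactors, (q : ZMod 8) ^ d.factorization q := by
    have h2 : ∏ q ∈ d.primeFactors, q ^ d.factorization q = d :=
      Nat.prod_factorization_pow_eq_self hd0
    conv_lhs => rw [← h2]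
    push_cast
    rfl
  rw [h1, map_prod, ← Finset.prod_pow_eq_pow_sum, Finset.prod_filter]
  apply Finset.prod_congr rfl
  intro q hq
  rw [map_pow]
  have hqp := Nat.prime_of_mem_primeFactors hq
  have hqd := Nat.dvd_of_mem_primeFactors hq
  have hq2 : q % 2 = 1 := by
    by_contra h
    have h2 : 2 ∣ q := by omega
    have := h2.trans hqd
    omega
  rw [chi8_eq q hq2]
  by_cases hI : Inert q
  · rw [if_pos hI, if_pos hI.2]
  · rw [if_neg hI, if_neg (fun h => hI ⟨hqp, h⟩), one_pow]

open Classical in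
lemma parity_nat {d : ℕ} (hd : d % 2 = 1) :
    Odd (∑ q ∈ d.primeFactors.filter Inert, d.factorization q) ↔ (d % 8 = 3 ∨ d % 8 = 5) := by
  have h1 := chi8_prod hd
  rw [chi8_eq d hd] at h1
  constructor
  · intro h
    by_contra hcon
    rw [if_neg hcon, h.neg_one_pow] at h1
    norm_num at h1
  · intro h
    by_contra hcon
    rw [if_pos h, (Nat.not_odd_iff_even.1 hcon).neg_one_pow] at h1
    norm_num at h1

lemma parity_pos (hL : Law) (n : ℕ) (hn : n % 2 = 1) (F : Finset ℕ) (hF : ∀ q ∈ F, Inert q)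
    (hF2 : ∀ q, Inert q → Dv q n → q ∈ F) :
    (Odd (∑ q ∈ F.filter (fun q => padicValRat q (xc ((n : ℤ) • P0)) < 0), hv q n) ↔
    (n % 16 = 5 ∨ n % 16 = 7 ∨ n % 16 = 9 ∨ n % 16 = 11)) := by
  classical
  obtain ⟨c, d, hc, hd, hcop, hx, hlaw⟩ := hL n hn
  have hn0 : n ≠ 0 := by omega
  have hx' : xc ((n : ℤ) • P0) = -((c : ℚ) / d) ^ 2 := hx
  have hc0 : (c : ℚ) ≠ 0 := by
    have : c ≠ 0 := by omega
    exact_mod_cast this
  have hd0 : (d : ℚ) ≠ 0 := by
    have : d ≠ 0 := by omega
    exact_mod_cast this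
  have hval : ∀ q : ℕ, q.Prime → padicValRat q (xc ((n : ℤ) • P0)) =
      2 * ((padicValNat q c : ℤ) - padicValNat q d) := by
    intro q hq
    have : Fact q.Prime := ⟨hq⟩
    rw [hx', padicValRat.neg, padicValRat.pow, padicValRat.div hc0 hd0, padicValRat.of_nat,
      padicValRat.of_nat]
    norm_num
  have hneg : ∀ q : ℕ, q.Prime → (padicValRat q (xc ((n : ℤ) • P0)) < 0 ↔ q ∣ d) := by
    intro q hq
    have : Fact q.Prime := ⟨hq⟩
    rw [hval q hq]
    constructor
    · intro h
      by_contra hcon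
      rw [padicValNat.eq_zero_of_not_dvd hcon] at h
      omega
    · intro h
      have h1 : ¬ q ∣ c := fun h2 => by
        have := Nat.dvd_gcd h2 h
        rw [hcop] at this
        exact hq.one_lt.ne' (Nat.dvd_one.1 this)
      rw [padicValNat.eq_zero_of_not_dvd h1]
      have h2 : 1 ≤ padicValNat q d := one_le_padicValNat_of_dvd (by omega) h
      omega
  have hset : F.filter (fun q => padicValRat q (xc ((n : ℤ) • P0)) < 0) =
      d.primeFactors.filter Inert := by
    ext q
    rw [Finset.mem_filter, Finset.mem_filter, Nat.mem_primeFactors]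
    constructor
    · rintro ⟨h1, h2⟩
      have hq := hF q h1
      exact ⟨⟨hq.1, (hneg q hq.1).1 h2, by omega⟩, hq⟩
    · rintro ⟨⟨h1, h2, h3⟩, h4⟩
      have h5 := (hneg q h1).2 h2
      exact ⟨hF2 q h4 (Or.inr h5), h5⟩
  have hsum : ∑ q ∈ F.filter (fun q => padicValRat q (xc ((n : ℤ) • P0)) < 0), hv q n =
      -((∑ q ∈ d.primeFactors.filter Inert, d.factorization q : ℕ) : ℤ) := by
    rw [hset]
    push_cast
    rw [← Finset.sum_neg_distrib]
    apply Finset.sum_congr rfl
    intro q hq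
    rw [Finset.mem_filter, Nat.mem_primeFactors] at hq
    obtain ⟨⟨h1, h2, h3⟩, h4⟩ := hq
    have h6 : ¬ q ∣ c := fun h7 => by
      have := Nat.dvd_gcd h7 h2
      rw [hcop] at this
      exact h1.one_lt.ne' (Nat.dvd_one.1 this)
    unfold hv
    rw [hval q h1, padicValNat.eq_zero_of_not_dvd h6, Nat.factorization_def d h1]
    push_cast
    omega
  rw [hsum, odd_neg, Int.odd_coe_nat, parity_nat hd]
  omega

theorem stParity (hL : Law) : StParity := by
  intro n F hodd hF hF2
  rcases Int.natAbs_eq n with h | h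
  · have hn2 : n.natAbs % 2 = 1 := by
      obtain ⟨k, hk⟩ := hodd
      omega
    have key := parity_pos hL n.natAbs hn2 F hF (by rw [← h]; exact hF2)
    rw [← h] at key
    rw [key]
    omega
  · have hn2 : n.natAbs % 2 = 1 := by
      obtain ⟨k, hk⟩ := hodd
      omega
    have hx : xc (n • P0) = xc ((n.natAbs : ℤ) • P0) := by
      conv_lhs => rw [h]
      rw [neg_zsmul, xc_neg]
    have hv' : ∀ q, hv q n = hv q (n.natAbs : ℤ) := fun q => by
      unfold hv; rw [hx]
    have hD' : ∀ q, Dv q n ↔ Dv q (n.natAbs : ℤ) := fun q => by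
      unfold Dv
      rw [hx]
      have : n = 0 ↔ (n.natAbs : ℤ) = 0 := by omega
      rw [this]
    have key := parity_pos hL n.natAbs hn2 F hF (fun q hq hD => hF2 q hq ((hD' q).2 hD))
    rw [hx]
    simp only [hv']
    rw [key]
    omega

end Vale.Agent.P027.N.B7
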